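import Mathlib
import Vale.Agent.P249.Defs
import Vale.Agent.P249.Final

open MeasureTheory Filter Asymptotics Vale.Agent.P249
open scoped ENNReal

universe u

namespace Vale.Agent.Results.P249.Upper

/-- For every `1 ≤ p < ∞` and every `D > 1`, every `n`-point subset of an `L_p` space maps into
`ℓ_p^m` with distortion at most `D`, where `m ≤ C n (log n)^(p+2)`. -/
theorem result (p : ℝ≥0∞) [Fact (1 ≤ p)] (hp : p ≠ ⊤) (D : ℝ) (hD : 1 < D) :
    (∀ n : ℕ, 2 ≤ n → DimSuffices.{u} p n D (dimLp.{u} p n D)) ∧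
    (∃ C : ℝ, 0 < C ∧ ∀ n : ℕ, 2 ≤ n →
      (dimLp.{u} p n D : ℝ) ≤ C * n * Real.log n ^ (p.toReal + 2)) ∧
    (∀ ε : ℝ, 0 < ε →
      (fun n : ℕ => (dimLp.{u} p n D : ℝ)) =o[atTop] fun n : ℕ => (n : ℝ) ^ (1 + ε)) := by
  obtain ⟨C, hC, h⟩ := main_bound.{u} p hp D hD
  have hle : ∀ n : ℕ, 2 ≤ n →
      (dimLp.{u} p n D : ℝ) ≤ C * n * Real.log n ^ (p.toReal + 2) := by
    intro n hn
    obtain ⟨m, hm, hmC⟩ := h n hn
    have h1 : dimLp.{u} p n D ≤ m := Nat.sInf_le hm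
    exact le_trans (by exact_mod_cast h1) hmC
  refine ⟨fun n hn => ?_, ⟨C, hC, hle⟩, fun ε hε => ?_⟩
  · obtain ⟨m, hm, _⟩ := h n hn
    exact Nat.sInf_mem (s := {m : ℕ | DimSuffices.{u} p n D m}) ⟨m, hm⟩
  · have h1 : (fun x : ℝ => Real.log x ^ (p.toReal + 2)) =o[atTop] fun x : ℝ => x ^ ε :=
      isLittleO_log_rpow_rpow_atTop _ hε
    have h2 : (fun n : ℕ => Real.log n ^ (p.toReal + 2)) =o[atTop] fun n : ℕ => (n : ℝ) ^ ε :=
      h1.comp_tendsto tendsto_natCast_atTop_atTop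
    have h3 : (fun n : ℕ => (C * n) * Real.log n ^ (p.toReal + 2)) =o[atTop]
        fun n : ℕ => (n : ℝ) * (n : ℝ) ^ ε :=
      IsBigO.mul_isLittleO ((isBigO_refl (fun n : ℕ => (n : ℝ)) atTop).const_mul_left C) h2
    have h4 : (fun n : ℕ => (dimLp.{u} p n D : ℝ)) =O[atTop]
        fun n : ℕ => (C * n) * Real.log n ^ (p.toReal + 2) := by
      apply IsBigO.of_bound 1
      filter_upwards [eventually_ge_atTop 2] with n hn
      rw [one_mul, Real.norm_of_nonneg (Nat.cast_nonneg _)]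
      exact (hle n hn).trans (le_abs_self _)
    refine (h4.trans_isLittleO h3).congr' (EventuallyEq.refl _ _) ?_
    filter_upwards [eventually_ge_atTop 1] with n hn
    have hn0 : (0 : ℝ) < n := by exact_mod_cast hn
    rw [Real.rpow_add hn0, Real.rpow_one]

end Vale.Agent.Results.P249.Upper
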